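import Vale.Agent.P231.S3B4.Fa

/-!
# P231, stage 3, [S3-B] (B4): relative numbers of homotopic families of loops
-/

set_option linter.unusedSectionVars false
set_option linter.unusedVariables false

open MeasureTheory Set Module Filter Topology
open scoped ContDiff Real ENNReal

namespace Vale.Agent.P231.S3B6

open Vale.Agent.P231.Fm Vale.Agent.P231.W Vale.Agent.P231.H584 Vale.Agent.P231.S3L
  Vale.Agent.P231.H766 Vale.Agent.P231.TW Vale.Agent.P231.S3B4 Vale.Agent.P231.S3B1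
open Vale.Agent.P231.Fm.Form (IsDeg)

variable {M : Type*} [MetricSpace M] {DM : Dif M} {S : ℝ} {S' : NNReal} {W : ℝ≥0∞} {δ : ℝ} {J : ℕ}
variable {Y : Type*} {DY : Dif Y} {OY : Set Y} {V₀ : Y → ℝ≥0∞} {c c' : Y → ℝ → M}
  {a : Y → Fin J → ℂ}

/-- a family of loops with a covering vector -/
theorem fa_lf (h : LF DY DM S V₀ c) (hS : S ≤ S') (hO : TH.Opn DY OY)
    (hV : ∀ y ∈ OY, V₀ y ≤ W) (ha : (DY.on OY).Map (Dif.lin (Fin J → ℂ)) a)
    (hc : ∀ y ∈ OY, Pt DY y → ∃ j, δ ≤ ‖a y j‖) : FA DY DM S' W δ J OY c a where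
  opn := hO
  map := map_curry h.smooth
  mapa := ha
  per y _ := h.per y
  lip y _ := LipschitzWith.of_dist_le_mul fun s t => by
    rw [Real.dist_eq]
    exact (h.lip y s t).trans (mul_le_mul_of_nonneg_right hS (abs_nonneg _))
  var y hy _ := (h.var y).trans (hV y hy)
  cov := hc

theorem opn_prod (hO : TH.Opn DY OY) : TH.Opn (DY.prod (Dif.lin ℝ)) (OY ×ˢ (univ : Set ℝ)) :=
  ⟨fun {E} _ _ _ {u x} hu hx => (hO.ev hu.1 hx.1).mono fun y hy => ⟨hy, mem_univ _⟩⟩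

theorem map_fst_on : ((DY.prod (Dif.lin ℝ)).on (OY ×ˢ (univ : Set ℝ))).Map (DY.on OY) Prod.fst :=
  fun {E} _ _ _ {u x} hu => ⟨hu.1.1, hu.2.mono fun y hy => hy.1⟩

section Pn

variable {V : Type} [NormedAddCommGroup V] [NormedSpace ℝ V] [FiniteDimensional ℝ V]
  [MeasurableSpace V] [BorelSpace V]
variable {U O B : Set V} {κ : V → Y} {χ : V → ℝ}

/-- **the relative number only depends on the homotopy class of the family** -/
theorem Pn_lht {N k : ℕ} (hN : N = k + 1) (b : Basis (Fin N) ℝ V) (h : Plt U O B DY OY κ)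
    (ht : TH.Thin ((Dif.lin V).on (U ∩ Bᶜ)) DY κ 26) (hL : LHt DY DM S V₀ c c') (hS : S ≤ S')
    (hV : ∀ y ∈ OY, V₀ y ≤ W) (h0 : FA DY DM S' W δ J OY c a) (h1 : FA DY DM S' W δ J OY c' a)
    (z0 : LL DM S' W δ J) {F : Form DM} (hF : F.d = 0) (hFe : F.sg = F) (hFn : F ^ (2 + 1) = 0)
    (hF8 : IsDeg 8 F) {ℓ : Form (dLL DM S' W δ J)} (hℓ : ℓ.d = t2L S' W δ J F)
    (hℓd : IsDeg 28 ℓ) (hχ : Cut U O B χ) :
    Pn b χ h (h1.T F) (h1.L z0 ℓ) = Pn b χ h (h0.T F) (h0.L z0 ℓ) := by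
  obtain ⟨H, hH, e0, e1⟩ := hL
  have hA : ((DY.prod (Dif.lin ℝ)).on (OY ×ˢ (univ : Set ℝ))).Map (Dif.lin (Fin J → ℂ))
      (fun p => a p.1) := fun {E} _ _ _ {u x} hu => h0.mapa (u := fun y => (u y).1)
        (map_fst_on hu)
  have hH' : FA (DY.prod (Dif.lin ℝ)) DM S' W δ J (OY ×ˢ (univ : Set ℝ)) H fun p => a p.1 :=
    fa_lf hH hS (opn_prod h0.opn) (fun p hp => hV p.1 hp.1) hA fun p hp hp' =>
      h0.cov p.1 hp.1 (Pt.map Dif.map_fst hp')
  exact Pn_htpy_fa hN b h ht hH' h0 h1 z0 hF hFe hFn hF8 hℓ hℓd hχ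
    (fun y _ t => e0 y 0 t le_rfl) (fun y _ t => e1 y 1 t le_rfl) (fun _ _ _ => rfl)
    fun _ _ _ => rfl

/-- a rotation of the covering vector -/
theorem cov_rot {θ δ : ℝ} {J : ℕ} {a a' : Fin J → ℂ} (hd : ∀ j, a j = 0 ∨ a' j = 0)
    (hδ : 0 ≤ δ) (h0 : ∃ j, 2 * δ ≤ ‖a j‖) (h1 : ∃ j, 2 * δ ≤ ‖a' j‖) :
    ∃ j, δ ≤ ‖Real.cos θ • a j + Real.sin θ • a' j‖ := by
  have h2 := Real.sin_sq_add_cos_sq θ
  by_cases hc : 1 / 2 ≤ |Real.cos θ|
  · obtain ⟨j, hj⟩ := h0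
    refine ⟨j, ?_⟩
    rcases hd j with h | h
    · rw [h, norm_zero] at hj
      have h3 : δ = 0 := by linarith
      rw [h3]
      exact norm_nonneg _
    · rw [h, smul_zero, add_zero, norm_smul, Real.norm_eq_abs]
      nlinarith [norm_nonneg (a j)]
  · obtain ⟨j, hj⟩ := h1
    have hs : 1 / 2 ≤ |Real.sin θ| := by
      by_contra h3
      push Not at h3 hc
      have e1 : Real.cos θ ^ 2 < 1 / 4 := by
        rw [← sq_abs]
        nlinarith [abs_nonneg (Real.cos θ)]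
      have e2 : Real.sin θ ^ 2 < 1 / 4 := by
        rw [← sq_abs]
        nlinarith [abs_nonneg (Real.sin θ)]
      linarith
    refine ⟨j, ?_⟩
    rcases hd j with h | h
    · rw [h, smul_zero, zero_add, norm_smul, Real.norm_eq_abs]
      nlinarith [norm_nonneg (a' j)]
    · rw [h, norm_zero] at hj
      have h3 : δ = 0 := by linarith
      rw [h3]
      exact norm_nonneg _

/-- **the relative number does not depend on the covering vector** -/
theorem Pn_rot {N k : ℕ} (hN : N = k + 1) (b : Basis (Fin N) ℝ V) (h : Plt U O B DY OY κ)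
    (ht : TH.Thin ((Dif.lin V).on (U ∩ Bᶜ)) DY κ 26) {a' : Y → Fin J → ℂ} (hδ : 0 ≤ δ)
    (hd : ∀ y ∈ OY, ∀ j, a y j = 0 ∨ a' y j = 0)
    (hc0 : ∀ y ∈ OY, Pt DY y → ∃ j, 2 * δ ≤ ‖a y j‖)
    (hc1 : ∀ y ∈ OY, Pt DY y → ∃ j, 2 * δ ≤ ‖a' y j‖)
    (h0 : FA DY DM S' W δ J OY c a) (h1 : FA DY DM S' W δ J OY c a')
    (z0 : LL DM S' W δ J) {F : Form DM} (hF : F.d = 0) (hFe : F.sg = F) (hFn : F ^ (2 + 1) = 0)
    (hF8 : IsDeg 8 F) {ℓ : Form (dLL DM S' W δ J)} (hℓ : ℓ.d = t2L S' W δ J F)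
    (hℓd : IsDeg 28 ℓ) (hχ : Cut U O B χ) :
    Pn b χ h (h1.T F) (h1.L z0 ℓ) = Pn b χ h (h0.T F) (h0.L z0 ℓ) := by
  have hA : ((DY.prod (Dif.lin ℝ)).on (OY ×ˢ (univ : Set ℝ))).Map (Dif.lin (Fin J → ℂ))
      (fun p j => Real.cos (π / 2 * p.2) • a p.1 j + Real.sin (π / 2 * p.2) • a' p.1 j) := by
    intro E _ _ _ u x hu
    have k0 : Sm (fun y => a (u y).1) x := h0.mapa (u := fun y => (u y).1) (map_fst_on hu)
    have k1 : Sm (fun y => a' (u y).1) x := h1.mapa (u := fun y => (u y).1) (map_fst_on hu)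
    have k2 : Sm (fun y => (u y).2) x := hu.1.2
    have kc : Sm (fun y => Real.cos (π / 2 * (u y).2)) x :=
      (Sm.of_contDiff (g := fun s : ℝ => Real.cos (π / 2 * s))
        (Real.contDiff_cos.comp (contDiff_const.mul contDiff_id)) _).comp k2
    have ks : Sm (fun y => Real.sin (π / 2 * (u y).2)) x :=
      (Sm.of_contDiff (g := fun s : ℝ => Real.sin (π / 2 * s))
        (Real.contDiff_sin.comp (contDiff_const.mul contDiff_id)) _).comp k2
    filter_upwards [k0, k1, kc, ks] with y e0 e1 ec es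
    exact (ec.smul e0).add (es.smul e1)
  have hH : FA (DY.prod (Dif.lin ℝ)) DM S' W δ J (OY ×ˢ (univ : Set ℝ)) (fun p => c p.1)
      (fun p j => Real.cos (π / 2 * p.2) • a p.1 j + Real.sin (π / 2 * p.2) • a' p.1 j) :=
    { opn := opn_prod h0.opn
      map := fun {E} _ _ _ {u x} hu => h0.map (u := fun y => (u y).1) hu.1
      mapa := hA
      per := fun p hp => h0.per p.1 (Pt.map Dif.map_fst hp)
      lip := fun p hp => h0.lip p.1 (Pt.map Dif.map_fst hp)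
      var := fun p hp hp' => h0.var p.1 hp.1 (Pt.map Dif.map_fst hp')
      cov := fun p hp hp' => cov_rot (hd p.1 hp.1) hδ (hc0 p.1 hp.1 (Pt.map Dif.map_fst hp'))
        (hc1 p.1 hp.1 (Pt.map Dif.map_fst hp')) }
  refine Pn_htpy_fa hN b h ht hH h0 h1 z0 hF hFe hFn hF8 hℓ hℓd hχ
    (fun y _ t => rfl) (fun y _ t => rfl) (fun y _ _ => ?_) fun y _ _ => ?_
  · funext j
    simp
  · funext j
    simp

end Pn

end Vale.Agent.P231.S3B6
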