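import Vale.Agent.P231.S3B4.Fa
import Vale.Agent.P231.S3B.Fin
import Vale.Agent.P231.S3B1.T2c
import Vale.Agent.P231.S3B1.Gc

/-!
# P231, stage 3, [S3-B]: the closed family of polygons and its total relative number
-/

set_option maxSynthPendingDepth 3
set_option linter.unusedSectionVars false
set_option linter.unusedVariables false

open Bundle Manifold Set Filter Module MeasureTheory
open scoped ContDiff Manifold Topology ENNReal

namespace Vale.Agent.P231.S3B6

open Vale.Agent.P234 Vale.Agent.P231 Vale.Agent.P231.Fm Vale.Agent.P231.W Vale.Agent.P231.WR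
open Vale.Agent.P231.H766 Vale.Agent.P231.S3A Vale.Agent.P231.S3L Vale.Agent.P231.S3R
open Vale.Agent.P231.WD3 Vale.Agent.P231.H584
open Vale.Agent.P231.TW (JJ JJ_congr JJ_zero)
open Vale.Agent.P231.S3B1 (GY dGY cl lf_cl pl pl_per lip_pl var_pl at_pl v8 map_v8 sd_v8_le lht_cl
  cl_pl lstp Sp dPi continuousAt_Pe)
open Vale.Agent.P231.S3B4

/-! ### boxes and plots for relative classes -/

section Box

variable {V : Type} [NormedAddCommGroup V] [NormedSpace ℝ V] [FiniteDimensional ℝ V]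
  {Y : Type*} {DY : Dif Y} {G : V → Y} {K : Set V} {m : ℕ}

theorem isOpen_preimage_of_opn (hG : (Dif.lin V).Map DY G) {OY : Set Y} (hO : TH.Opn DY OY) :
    IsOpen (G ⁻¹' OY) :=
  isOpen_iff_mem_nhds.2 fun z hz => hO.ev (S3B.at_glob hG z) hz

theorem thin_of_bx (h : S3B.Bx DY G K m) :
    TH.Thin ((Dif.lin V).on (univ ∩ Kᶜ)) DY G m := by
  refine ⟨fun {E} _ _ _ {u x} hu => ?_⟩
  have h1 : Sm u x := hu.1
  have h2 : u x ∉ K := (hu.2.self_of_nhds).2
  obtain ⟨W, i1, i2, i3, v, g, hW, hg, hv, he⟩ := h.thin (u x) h2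
  refine ⟨W, i1, i2, i3, v, fun y => g (u y), hW, hg.comp h1, hv, ?_⟩
  have h3 : ∀ᶠ y in 𝓝 x, G (u y) = (v ∘ g) (u y) := h1.continuousAt.eventually he
  filter_upwards [h3] with y hy
  exact hy

/-- a box is a plot for relative classes -/
theorem plt_of_bx (h : S3B.Bx DY G K m) (hm : m ≤ 27) {OY : Set Y} (hO : TH.Opn DY OY) :
    Plt univ (G ⁻¹' OY) K DY OY G where
  opU := isOpen_univ
  opO := isOpen_preimage_of_opn h.map hO
  sub := subset_univ _
  clB := h.cpt.isClosed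
  map := fun {E} _ _ _ {u x} hu => h.map hu.1
  mem x hx := hx
  thin := (thin_of_bx h).mono hm

end Box

noncomputable section

variable {E : Type*} [NormedAddCommGroup E] [NormedSpace ℝ E] [FiniteDimensional ℝ E]
  {M : Type*} [MetricSpace M] [ChartedSpace E M] [IsManifold 𝓘(ℝ, E) ∞ M]
  [RiemannianBundle (fun x : M => TangentSpace 𝓘(ℝ, E) x)]
  [IsContMDiffRiemannianBundle 𝓘(ℝ, E) ∞ E (fun x : M => TangentSpace 𝓘(ℝ, E) x)]
  {e : ∀ x : M, TangentSpace 𝓘(ℝ, E) x → M}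
  [CompactSpace M] [ConnectedSpace M] [IsRiemannianManifold 𝓘(ℝ, E) M]
  {D : ℝ}

/-- the polygon of a quadruple -/
def cp (F : Facts e) (hB : InjGE e D) (y : GY e D) : ℝ → M := pl (geoM F hB) (v8 F y)

/-- the short polygons -/
def OG (F : Facts e) (m : ℝ) : Set (GY e D) := {y | Pe (v8 F y) < m}

variable (F : Facts e) (hD : 0 < D) (hB : InjGE e D) (hdiam : ∀ p q : M, dist p q ≤ D)

include hB in
theorem opn_OG (m : ℝ) : TH.Opn (dGY e D) (OG F m) := by
  refine ⟨fun {V} _ _ _ {u x} hu hx => ?_⟩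
  have h1 : ContinuousAt (fun s => Pe (v8 F (u s))) x := continuousAt_Pe F hB (map_v8 F hu)
  exact h1.eventually_lt_const hx

include hD hB hdiam in
theorem map_cp : (dGY e D).Map (dLp (dM E M)) (cp F hB) := by
  refine map_curry (c := cp F hB) ?_
  intro V _ _ _ u x hu
  exact at_pl (geoM F hB) (z := fun y => v8 F (u y).1) (τ := fun y => (u y).2) (map_v8 F hu.1) hu.2
    fun i => (sd_v8_le F hD hB hdiam _ i).trans_lt (by linarith)

include hD hdiam in
/-- **the closed family** -/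
theorem fa_cp {m : ℝ} {S : NNReal} (hS : Sp 8 (D / 2) ≤ S) {δ : ℝ} {J : ℕ}
    {a : GY e D → Fin J → ℂ} (ha : ((dGY e D).on (OG F m)).Map (Dif.lin (Fin J → ℂ)) a)
    (hcov : ∀ y ∈ OG F m, ∃ j, δ ≤ ‖a y j‖) :
    FA (dGY e D) (dM E M) S (ENNReal.ofReal m) δ J (OG F m) (cp F hB) a where
  opn := opn_OG F hB m
  map := map_cp F hD hB hdiam
  mapa := ha
  per y _ := pl_per _ _
  lip y _ := (lip_pl (geoM F hB) (show D / 2 < D by linarith)
    (sd_v8_le F hD hB hdiam y)).weaken hS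
  var y hy _ := (var_pl (geoM F hB) fun i => (sd_v8_le F hD hB hdiam y i).trans_lt
    (by linarith)).trans (ENNReal.ofReal_le_ofReal (le_of_lt hy))
  cov y hy _ := hcov y hy

/-! ### the total number -/

section Total

variable {V : Type} [NormedAddCommGroup V] [NormedSpace ℝ V] [FiniteDimensional ℝ V]
  [MeasurableSpace V] [BorelSpace V] {G : V → GY e D} {K : Set V} {k : ℕ}

include hD hdiam in
theorem JJ_cp_cl (hG : S3B.Bx (dGY e D) G K k) {N : ℕ} (b : Basis (Fin N) ℝ V) (hk : k + 2 ≤ N)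
    {w : Form (dM E M)} (hw : w.d = 0) (hwe : w.sg = w) (hwn : w ^ (2 + 1) = 0) :
    JJ b (fun z => (Form.pull (cp F hB) (map_cp F hD hB hdiam) (t2P w)).val G z) =
      JJ b (fun z => (T2n (fun q : GY e D × ℝ => cl F q.1 q.2)
        (lf_cl F hD hB hdiam).smooth w).val G z) := by
  by_cases hV : Nonempty V
  · obtain ⟨z₀⟩ := hV
    obtain ⟨η, hη⟩ := cl_pl F hD hB hdiam (G z₀) hw hwe hwn
    have h1 : Form.pull (cp F hB) (map_cp F hD hB hdiam) (t2P w) =
        T2n (fun p : GY e D × ℝ => pl (geoM F hB) (v8 F p.1) p.2)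
          (lht_cl F hD hB hdiam).right.smooth w := pull_t2P _ w
    rw [h1]
    have h2 := congrArg (hG.II b (by omega)) hη
    rw [map_sub, hG.II_d b hk, sub_eq_zero] at h2
    exact h2
  · exact absurd ⟨(0 : V)⟩ hV

include hdiam in
/-- **the relative number of the closed family over a box** -/
theorem Pn_cp (hG : S3B.Bx (dGY e D) G K k) (hk : k ≤ 27) {N : ℕ} (hN : N = 29)
    (b : Basis (Fin N) ℝ V) {m : ℝ} {S : NNReal} {δ : ℝ} {J : ℕ} {a : GY e D → Fin J → ℂ}
    (h : FA (dGY e D) (dM E M) S (ENNReal.ofReal m) δ J (OG F m) (cp F hB) a)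
    (z0 : LL (dM E M) S (ENNReal.ofReal m) δ J)
    {w : Form (dM E M)} (hw : w.d = 0) (hwe : w.sg = w) (hwn : w ^ (2 + 1) = 0)
    (hw8 : Form.IsDeg 8 w) {ℓ : Form (dLL (dM E M) S (ENNReal.ofReal m) δ J)}
    (hℓ : ℓ.d = t2L S (ENNReal.ofReal m) δ J w) (hℓd : Form.IsDeg 28 ℓ) {χ : V → ℝ}
    (hχ : Cut univ (G ⁻¹' OG F m) K χ) :
    Pn b χ (plt_of_bx hG hk (opn_OG F hB m)) (h.T w) (h.L z0 ℓ) =
      JJ b (fun z => (T2n (fun q : GY e D × ℝ => cl F q.1 q.2)
        (lf_cl F hD hB hdiam).smooth w).val G z) := by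
  have hR := h.rel z0 hw hwe hwn hw8 hℓ hℓd
  rw [← Pn_total (k := 28) hN b hG.cpt (plt_of_bx hG hk (opn_OG F hB m)) hR hχ hG.map,
    ← JJ_cp_cl F hD hB hdiam hG b (by omega) hw hwe hwn]
  refine JJ_congr b fun z => ?_
  rw [Form.pull_val _ _ (Sm.of_contDiff contDiff_id z : (Dif.lin V).At (id : V → V) z)]
  rfl

end Total

end

end Vale.Agent.P231.S3B6
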